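import Vale.Agent.P297Z.Gd.H

/-!
# P297: the graded ring of operators
-/

set_option linter.all false

noncomputable section

namespace Vale.Agent.P297Z

open Gd

variable {V W X Y Z : Spc} (k : Type) [CommRing k]

open Classical in
/-- the leading part of the action of a class of degree `i` -/
def gop (i : ℕ) (a : K0 W) : Module.End k (GH k W) :=
  if h : W.Free ∧ a ∈ FF W i then GH.map (kact W a) i 0 fun _ _ hg => Gd.FF_act h.1 h.2 hg else 0

variable {k}

theorem gop_hmk {i d : ℕ} {a : K0 W} (ha : a ∈ FF W i) {g : G W} (hg : g ∈ Fd W (d + 1)) :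
    gop k i a (hmk k d g) = if i ≤ d then hmk k (d - i) (kact W a g) else 0 := by
  by_cases hW : W.Free
  · rw [gop, dif_pos ⟨hW, ha⟩, GH.map_hmk hW hg, add_zero]
  · exact (GH.eq_zero_of_not_free hW _).trans (GH.eq_zero_of_not_free hW _).symm

theorem End_ext {u v : Module.End k (GH k W)}
    (h : W.Free → ∀ d g, g ∈ Fd W (d + 1) → u (hmk k d g) = v (hmk k d g)) : u = v := by
  by_cases hW : W.Free
  · exact GH.ext (h hW)
  · exact LinearMap.ext fun x =>
      (GH.eq_zero_of_not_free hW _).trans (GH.eq_zero_of_not_free hW _).symm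

theorem act_mem (hW : W.Free) {i d : ℕ} {a : K0 W} (ha : a ∈ FF W i) {g : G W}
    (hg : g ∈ Fd W (d + 1)) (h : i ≤ d) : kact W a g ∈ Fd W (d - i + 1) :=
  Gd.FF_act hW ha (Gd.Fd_mono (by omega) hg)

theorem gop_mul {i j : ℕ} {a b : K0 W} (ha : a ∈ FF W i) (hb : b ∈ FF W j) :
    gop k (i + j) (a * b) = gop k i a * gop k j b := End_ext fun hW d g hg => by
  rw [Module.End.mul_apply, gop_hmk (Gd.FF_mul ha hb) hg, gop_hmk hb hg]
  by_cases h : j ≤ d
  · rw [if_pos h, gop_hmk ha (act_mem hW hb hg h), kact_mul]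
    by_cases h' : i + j ≤ d
    · rw [if_pos h', if_pos (by omega)]
      congr 1; omega
    · rw [if_neg h', if_neg (by omega)]
  · rw [if_neg h, if_neg (by omega), map_zero]

theorem gop_add {i : ℕ} {a b : K0 W} (ha : a ∈ FF W i) (hb : b ∈ FF W i) :
    gop k i (a + b) = gop k i a + gop k i b := End_ext fun hW d g hg => by
  rw [LinearMap.add_apply, gop_hmk (add_mem ha hb) hg, gop_hmk ha hg, gop_hmk hb hg]
  split_ifs with h
  · rw [map_add, AddMonoidHom.add_apply, hmk_add (act_mem hW ha hg h) (act_mem hW hb hg h)]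
  · rw [add_zero]

theorem gop_one : gop k 0 (1 : K0 W) = 1 := End_ext fun _ d g hg => by
  rw [gop_hmk (Gd.mem_FF_zero _) hg, if_pos (Nat.zero_le _), kact_one]; rfl

theorem gop_of_mem {i : ℕ} {a : K0 W} (ha : a ∈ FF W (i + 1)) : gop k i a = 0 :=
  End_ext fun hW d g hg => by
    rw [gop_hmk (Gd.FF_anti (Nat.le_succ i) ha) hg, LinearMap.zero_apply]
    split_ifs with h
    · exact hmk_of_mem (Gd.FF_act hW ha (Gd.Fd_mono (by omega) hg))
    · rfl

/-- the test maps -/
structure Tst (X : Spc) where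
  W : Spc
  f : Mor W X

variable (k) in
/-- families of operators -/
abbrev Fam (X : Spc) : Type 1 := ∀ t : Tst X, Module.End k (GH k t.W)

variable (k) in
/-- the family given by a class -/
def fam (i : ℕ) (a : K0 X) : Fam k X := fun t => gop k i (pullK t.f a)

variable (k) in
/-- the generators -/
def gens (X : Spc) : Set (Fam k X) := {x | ∃ i a, a ∈ FF X i ∧ x = fam k i a}

theorem fam_mul {i j : ℕ} {a b : K0 X} (ha : a ∈ FF X i) (hb : b ∈ FF X j) :
    fam k (i + j) (a * b) = fam k i a * fam k j b := funext fun t => by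
  change gop k (i + j) (pullK t.f (a * b)) = gop k i (pullK t.f a) * gop k j (pullK t.f b)
  rw [map_mul, gop_mul (Gd.FF_pull _ ha) (Gd.FF_pull _ hb)]

theorem gens_comm : ∀ x ∈ gens k X, ∀ y ∈ gens k X, x * y = y * x := by
  rintro _ ⟨i, a, ha, rfl⟩ _ ⟨j, b, hb, rfl⟩
  rw [← fam_mul ha hb, ← fam_mul hb ha, add_comm, mul_comm]

variable (k) in
/-- the graded ring -/
def GA (X : Spc) : Type 1 := Algebra.adjoin k (gens k X)

/-- the ring structure -/
def GA.cr (X : Spc) : CommRing (GA k X) :=
  { (inferInstance : Ring (Algebra.adjoin k (gens k X))) with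
    mul_comm := (Algebra.isMulCommutative_adjoin k gens_comm).is_comm.comm }

instance (X : Spc) : CommRing (GA k X) := GA.cr X

/-- the algebra structure -/
def GA.alg (X : Spc) : Algebra k (GA k X) :=
  (inferInstance : Algebra k (Algebra.adjoin k (gens k X)))

instance (X : Spc) : Algebra k (GA k X) := GA.alg X

/-- the family of operators of an element -/
def GA.val : GA k X →ₐ[k] Fam k X := (Algebra.adjoin k (gens k X)).val

theorem GA.val_inj : Function.Injective (GA.val : GA k X → Fam k X) := Subtype.val_injective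

variable (k) in
open Classical in
/-- the leading part of a class of degree `i` -/
def amk (i : ℕ) (a : K0 X) : GA k X :=
  if h : a ∈ FF X i then ⟨fam k i a, Algebra.subset_adjoin ⟨i, a, h, rfl⟩⟩ else 0

theorem amk_eq {i : ℕ} {a : K0 X} (ha : a ∈ FF X i) :
    amk k i a = ⟨fam k i a, Algebra.subset_adjoin ⟨i, a, ha, rfl⟩⟩ := dif_pos ha

theorem val_amk {i : ℕ} {a : K0 X} (ha : a ∈ FF X i) : GA.val (amk k i a) = fam k i a := by
  rw [amk_eq ha]; rfl

theorem amk_of_not_mem {i : ℕ} {a : K0 X} (ha : a ∉ FF X i) : amk k i a = 0 := dif_neg ha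

theorem amk_mul {i j : ℕ} {a b : K0 X} (ha : a ∈ FF X i) (hb : b ∈ FF X j) :
    amk k (i + j) (a * b) = amk k i a * amk k j b := GA.val_inj (by
  rw [map_mul, val_amk ha, val_amk hb, val_amk (Gd.FF_mul ha hb), fam_mul ha hb])

theorem amk_add {i : ℕ} {a b : K0 X} (ha : a ∈ FF X i) (hb : b ∈ FF X i) :
    amk k i (a + b) = amk k i a + amk k i b := GA.val_inj (by
  rw [map_add, val_amk ha, val_amk hb, val_amk (add_mem ha hb)]
  funext t
  change gop k i (pullK t.f (a + b)) = gop k i (pullK t.f a) + gop k i (pullK t.f b)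
  rw [map_add, gop_add (Gd.FF_pull _ ha) (Gd.FF_pull _ hb)])

theorem amk_one : amk k 0 (1 : K0 X) = 1 := GA.val_inj (by
  rw [map_one, val_amk (Gd.mem_FF_zero _)]
  funext t
  change gop k 0 (pullK t.f 1) = 1
  rw [map_one, gop_one])

theorem amk_of_mem {i : ℕ} {a : K0 X} (ha : a ∈ FF X (i + 1)) : amk k i a = 0 := GA.val_inj (by
  rw [map_zero, val_amk (Gd.FF_anti (Nat.le_succ i) ha)]
  funext t
  exact gop_of_mem (Gd.FF_pull _ ha))

theorem amk_zero (i : ℕ) : amk k i (0 : K0 X) = 0 := amk_of_mem (zero_mem _)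

variable (k) in
/-- the leading part as an additive map -/
def amkHom (X : Spc) (i : ℕ) : FF X i →+ GA k X where
  toFun a := amk k i a.1
  map_zero' := amk_zero i
  map_add' a b := amk_add a.2 b.2

theorem amk_neg {i : ℕ} {a : K0 X} (ha : a ∈ FF X i) : amk k i (-a) = -amk k i a :=
  map_neg (amkHom k X i) ⟨a, ha⟩

theorem amk_sub {i : ℕ} {a b : K0 X} (ha : a ∈ FF X i) (hb : b ∈ FF X i) :
    amk k i (a - b) = amk k i a - amk k i b :=
  map_sub (amkHom k X i) ⟨a, ha⟩ ⟨b, hb⟩

theorem amk_zsmul {i : ℕ} {a : K0 X} (ha : a ∈ FF X i) (n : ℤ) :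
    amk k i (n • a) = n • amk k i a :=
  map_zsmul (amkHom k X i) n ⟨a, ha⟩

theorem amk_nsmul {i : ℕ} {a : K0 X} (ha : a ∈ FF X i) (n : ℕ) :
    amk k i (n • a) = n • amk k i a :=
  map_nsmul (amkHom k X i) n ⟨a, ha⟩

theorem amk_sum {ι : Type*} (s : Finset ι) {i : ℕ} {a : ι → K0 X} (ha : ∀ j ∈ s, a j ∈ FF X i) :
    amk k i (∑ j ∈ s, a j) = ∑ j ∈ s, amk k i (a j) := by
  classical
  induction s using Finset.induction_on with
  | empty => simpa using amk_zero i
  | insert b s hb ih =>
    rw [Finset.sum_insert hb, Finset.sum_insert hb, amk_add (ha b (Finset.mem_insert_self _ _))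
      (sum_mem fun i hi => ha i (Finset.mem_insert_of_mem hi)),
      ih fun i hi => ha i (Finset.mem_insert_of_mem hi)]

theorem amk_congr {i : ℕ} {a b : K0 X} (hb : b ∈ FF X i) (h : a - b ∈ FF X (i + 1)) :
    amk k i a = amk k i b := by
  have e : a = (a - b) + b := (sub_add_cancel _ _).symm
  rw [e, amk_add (Gd.FF_anti (Nat.le_succ i) h) hb, amk_of_mem h, zero_add]

theorem amk_pow {i : ℕ} {a : K0 X} (ha : a ∈ FF X i) (n : ℕ) :
    amk k (n * i) (a ^ n) = amk k i a ^ n := by
  induction n with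
  | zero => simpa using amk_one
  | succ n ih => rw [pow_succ, Nat.succ_mul, amk_mul (Gd.FF_pow ha n) ha, ih, pow_succ]

theorem amk_intCast (n : ℤ) : amk k 0 (n : K0 X) = n := by
  rw [← zsmul_one, amk_zsmul (Gd.mem_FF_zero _), amk_one, zsmul_one]

namespace GA

theorem induction {P : GA k X → Prop} (hm : ∀ i a, a ∈ FF X i → P (amk k i a))
    (ha : ∀ x y, P x → P y → P (x + y)) (hs : ∀ (c : k) x, P x → P (c • x)) (x : GA k X) :
    P x := by
  let S : Submodule k (GA k X) := Submodule.span k {x | ∃ i a, a ∈ FF X i ∧ x = amk k i a}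
  have hS : ∀ x ∈ S, P x := fun x hx => by
    induction hx using Submodule.span_induction with
    | mem x hx => obtain ⟨i, a, h, rfl⟩ := hx; exact hm i a h
    | zero => rw [← amk_zero 0]; exact hm _ _ (zero_mem _)
    | add x y _ _ hx hy => exact ha _ _ hx hy
    | smul c x _ hx => exact hs _ _ hx
  have hmul : ∀ x ∈ S, ∀ y ∈ S, x * y ∈ S := fun x hx y hy => by
    induction hx using Submodule.span_induction with
    | mem x hx =>
      induction hy using Submodule.span_induction with
      | mem y hy =>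
        obtain ⟨i, a, h, rfl⟩ := hx
        obtain ⟨j, b, h', rfl⟩ := hy
        exact Submodule.subset_span ⟨i + j, a * b, Gd.FF_mul h h', (amk_mul h h').symm⟩
      | zero => rw [mul_zero]; exact zero_mem _
      | add y z _ _ hy hz => rw [mul_add]; exact add_mem hy hz
      | smul c y _ hy => rw [mul_smul_comm]; exact S.smul_mem c hy
    | zero => rw [zero_mul]; exact zero_mem _
    | add x z _ _ hx hz => rw [add_mul]; exact add_mem hx hz
    | smul c x _ hx => rw [smul_mul_assoc]; exact S.smul_mem c hx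
  refine hS x ?_
  obtain ⟨x, hx⟩ := x
  induction hx using Algebra.adjoin_induction with
  | mem x hx =>
    obtain ⟨i, a, h, rfl⟩ := hx
    exact Submodule.subset_span ⟨i, a, h, (amk_eq h).symm⟩
  | algebraMap c =>
    have : (algebraMap k (GA k X) c) ∈ S := by
      rw [Algebra.algebraMap_eq_smul_one]
      exact S.smul_mem c (Submodule.subset_span ⟨0, 1, Gd.mem_FF_zero _, amk_one.symm⟩)
    exact this
  | add x y hx hy ihx ihy => exact S.add_mem ihx ihy
  | mul x y hx hy ihx ihy => exact hmul _ ihx _ ihy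

/-- restriction of families -/
def res (f : Mor X Y) : Fam k Y →ₐ[k] Fam k X :=
  Pi.algHom k _ fun t : Tst X => Pi.evalAlgHom k _ (⟨t.W, f.comp t.f⟩ : Tst Y)

theorem res_fam (f : Mor X Y) (i : ℕ) (a : K0 Y) : res f (fam k i a) = fam k i (pullK f a) := by
  funext t
  change gop k i (pullK (f.comp t.f) a) = gop k i (pullK t.f (pullK f a))
  rw [pullK_comp]

/-- the pull-back -/
def pull (f : Mor X Y) : GA k Y →ₐ[k] GA k X :=
  ((res f).comp val).codRestrict (Algebra.adjoin k (gens k X)) fun x => by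
    induction x using induction with
    | hm i a h =>
      rw [AlgHom.comp_apply, val_amk h, res_fam]
      exact Algebra.subset_adjoin ⟨i, _, Gd.FF_pull f h, rfl⟩
    | ha x y hx hy => rw [map_add]; exact add_mem hx hy
    | hs c x hx => rw [map_smul]; exact Subalgebra.smul_mem _ hx c

theorem val_pull (f : Mor X Y) (x : GA k Y) (t : Tst X) :
    val (pull f x) t = val x ⟨t.W, f.comp t.f⟩ := rfl

theorem pull_amk (f : Mor X Y) {i : ℕ} {a : K0 Y} (ha : a ∈ FF Y i) :
    pull f (amk k i a) = amk k i (pullK f a) := val_inj (by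
  rw [val_amk (Gd.FF_pull f ha), ← res_fam, ← val_amk ha]; rfl)

theorem pull_comp (g : Mor Y Z) (f : Mor X Y) (x : GA k Z) :
    pull (g.comp f) x = pull f (pull g x) := rfl

theorem pull_id (x : GA k X) : pull (Mor.id X) x = x := rfl

theorem pull_congr {f f' : Mor X Y} (h : pullK f = pullK f') : (pull f : GA k Y →ₐ[k] _) = pull f' :=
  AlgHom.ext fun x => by
    induction x using induction with
    | hm i a ha => rw [pull_amk f ha, pull_amk f' ha, h]
    | ha x y hx hy => rw [map_add, map_add, hx, hy]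
    | hs c x hx => rw [map_smul, map_smul, hx]

/-- the action -/
def act (W : Spc) : GA k W →ₐ[k] Module.End k (GH k W) :=
  (Pi.evalAlgHom k _ (⟨W, Mor.id W⟩ : Tst W)).comp val

instance (W : Spc) : Module (GA k W) (GH k W) := Module.compHom _ (act (k := k) W).toRingHom

theorem smul_def (x : GA k W) (h : GH k W) : x • h = act W x h := rfl

instance (W : Spc) : IsScalarTower k (GA k W) (GH k W) :=
  ⟨fun c x h => by rw [smul_def, smul_def, map_smul]; rfl⟩

instance (W : Spc) : SMulCommClass k (GA k W) (GH k W) :=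
  ⟨fun c x h => by rw [smul_def, smul_def, map_smul]⟩

instance (W : Spc) : SMulCommClass (GA k W) k (GH k W) := SMulCommClass.symm _ _ _

/-- an element is known by its actions after all pull-backs -/
theorem ext {x y : GA k X}
    (h : ∀ (W : Spc) (f : Mor W X), W.Free → ∀ g : GH k W, pull f x • g = pull f y • g) :
    x = y := val_inj (funext fun t => End_ext fun hW _ _ _ => h t.W t.f hW _)

end GA

theorem amk_smul {i d : ℕ} {a : K0 W} (ha : a ∈ FF W i) {g : G W} (hg : g ∈ Fd W (d + 1)) :
    amk k i a • hmk k d g = if i ≤ d then hmk k (d - i) (kact W a g) else 0 := by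
  rw [← gop_hmk ha hg, GA.smul_def]
  change GA.val (amk k i a) ⟨W, Mor.id W⟩ _ = _
  rw [val_amk ha]
  change gop k i (pullK (Mor.id W) a) _ = _
  rw [pullK_id]

theorem amk_smul_add {i d : ℕ} {a : K0 W} (ha : a ∈ FF W i) {g : G W}
    (hg : g ∈ Fd W (d + i + 1)) : amk k i a • hmk k (d + i) g = hmk k d (kact W a g) := by
  rw [amk_smul ha hg, if_pos (Nat.le_add_left _ _), Nat.add_sub_cancel]

theorem amk_smul_lt {i d : ℕ} (a : K0 W) (g : G W) (h : d < i) : amk k i a • hmk k d g = 0 := by
  by_cases ha : a ∈ FF W i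
  · by_cases hg : g ∈ Fd W (d + 1)
    · rw [amk_smul ha hg, if_neg (by omega)]
    · rw [hmk_of_not_mem hg, smul_zero]
  · rw [amk_of_not_mem ha, zero_smul]

/-- with integer coefficients nothing is lost -/
theorem mem_FF_of_amk {i : ℕ} {a : K0 X} (ha : a ∈ FF X i) (h : amk ℤ i a = 0) :
    a ∈ FF X (i + 1) := Gd.mem_FF_iff.2 fun W f hW d g hg => by
  refine mem_Fd_of_hmk hW (Gd.FF_act hW (Gd.FF_pull f ha) (by rwa [add_right_comm])) ?_
  rw [← amk_smul_add (Gd.FF_pull f ha) hg, ← GA.pull_amk f ha, h, map_zero, zero_smul]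

theorem sub_mem_FF_of_amk {i : ℕ} {a b : K0 X} (ha : a ∈ FF X i) (hb : b ∈ FF X i)
    (h : amk ℤ i a = amk ℤ i b) : a - b ∈ FF X (i + 1) :=
  mem_FF_of_amk (sub_mem ha hb) (by rw [amk_sub ha hb, h, sub_self])

/-- the projection formula for a map of filtered groups -/
theorem GH.map_proj (hX : X.Free) (hY : Y.Free) (f : Mor X Y) {p : G X →+ G Y}
    {hp : ∀ d, ∀ g ∈ Fd X (d + 0), p g ∈ Fd Y (d + 0)}
    (h : ∀ a g, p (kact X (pullK f a) g) = kact Y a (p g)) (x : GA k Y) (g : GH k X) :
    GH.map p 0 0 hp (GA.pull f x • g) = x • GH.map p 0 0 hp g := by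
  induction x using GA.induction with
  | ha x y hx hy => rw [map_add, add_smul, map_add, hx, hy, add_smul]
  | hs c x hx => rw [map_smul (GA.pull f), smul_assoc, LinearMap.map_smul, hx, smul_assoc]
  | hm i a ha =>
    induction g using GH.induction with
    | h0 => simp
    | ha x y hx hy => rw [smul_add, map_add, hx, hy, map_add, smul_add]
    | hs c x hx => rw [smul_comm, LinearMap.map_smul, hx, LinearMap.map_smul, smul_comm]
    | hm d g hg =>
      rw [GA.pull_amk f ha, amk_smul (Gd.FF_pull f ha) hg, GH.map_hmk hX hg, if_pos (Nat.zero_le _),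
        Nat.sub_zero, add_zero, amk_smul ha (hp _ _ hg)]
      split_ifs with hi
      · rw [GH.map_hmk hX (act_mem hX (Gd.FF_pull f ha) hg hi), if_pos (Nat.zero_le _), h]; rfl
      · exact map_zero _

/-- compatibility of a flat pull-back with the action -/
theorem GH.map_pull (hX : X.Free) (hY : Y.Free) (f : Mor X Y) {p : G Y →+ G X} {n : ℕ}
    {hp : ∀ d, ∀ g ∈ Fd Y (d + 0), p g ∈ Fd X (d + n)}
    (h : ∀ a g, p (kact Y a g) = kact X (pullK f a) (p g)) (x : GA k Y) (g : GH k Y) :
    GH.map p 0 n hp (x • g) = GA.pull f x • GH.map p 0 n hp g := by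
  induction x using GA.induction with
  | ha x y hx hy => rw [map_add (GA.pull f), add_smul, map_add, hx, hy, add_smul]
  | hs c x hx => rw [map_smul (GA.pull f), smul_assoc, LinearMap.map_smul, hx, smul_assoc]
  | hm i a ha =>
    induction g using GH.induction with
    | h0 => simp
    | ha x y hx hy => rw [smul_add, map_add, hx, hy, map_add, smul_add]
    | hs c x hx => rw [smul_comm, LinearMap.map_smul, hx, LinearMap.map_smul, smul_comm]
    | hm d g hg =>
      have hpg : p g ∈ Fd X (d + n + 1) := by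
        have := hp (d + 1) g hg
        rwa [add_right_comm] at this
      rw [GA.pull_amk f ha, amk_smul ha hg, GH.map_hmk hY hg, if_pos (Nat.zero_le _),
        Nat.sub_zero, amk_smul (Gd.FF_pull f ha) hpg]
      by_cases hi : i ≤ d
      · rw [if_pos hi, if_pos (by omega), GH.map_hmk hY (act_mem hY ha hg hi),
          if_pos (Nat.zero_le _), h]
        congr 1; omega
      · rw [if_neg hi, map_zero, ← h, Gd.FF_act_zero hY ha hg (by omega), map_zero, hmk_zero, ite_self]

end Vale.Agent.P297Z
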