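import Vale.Agent.P297Z.K.Mor

/-!
# P297: the category of spaces
-/

set_option linter.all false

open scoped TensorProduct

noncomputable section

namespace Vale.Agent.P297Z.Ct

variable {V W X Y Z : Spc}

theorem ext {f g : Mor X Y} (h1 : ∀ r, f.φ r = g.φ r) (h2 : ∀ γ, f.ρ γ = g.ρ γ) : f = g := by
  obtain ⟨a, b, _, _⟩ := f
  obtain ⟨a', b', _, _⟩ := g
  obtain rfl : a = a' := AlgHom.ext h1
  obtain rfl : b = b' := AddMonoidHom.ext h2
  rfl

theorem assoc (h : Mor Y Z) (g : Mor X Y) (f : Mor W X) :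
    (h.comp g).comp f = h.comp (g.comp f) := rfl

theorem id_comp (f : Mor X Y) : (Mor.id Y).comp f = f := rfl

theorem comp_id (f : Mor X Y) : f.comp (Mor.id X) = f := rfl

theorem fst_lift (f : Mor W X) (g : Mor W Y) : (Mor.fst X Y).comp (Mor.lift f g) = f :=
  ext (fun r => by
    change Algebra.TensorProduct.productMap f.φ g.φ (r ⊗ₜ 1) = _
    simp) (fun γ => by
    change f.ρ γ + g.ρ 0 = _
    simp)

theorem snd_lift (f : Mor W X) (g : Mor W Y) : (Mor.snd X Y).comp (Mor.lift f g) = g :=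
  ext (fun r => by
    change Algebra.TensorProduct.productMap f.φ g.φ (1 ⊗ₜ r) = _
    simp) (fun γ => by
    change f.ρ 0 + g.ρ γ = _
    simp)

theorem prod_ext {f g : Mor W (X.prod Y)} (h1 : (Mor.fst X Y).comp f = (Mor.fst X Y).comp g)
    (h2 : (Mor.snd X Y).comp f = (Mor.snd X Y).comp g) : f = g := by
  refine ext (fun r => ?_) fun γ => ?_
  · have a1 : ∀ x : X.R, f.φ (x ⊗ₜ 1) = g.φ (x ⊗ₜ 1) := fun x => congrArg (fun u => u.φ x) h1
    have a2 : ∀ y : Y.R, f.φ (1 ⊗ₜ y) = g.φ (1 ⊗ₜ y) := fun y => congrArg (fun u => u.φ y) h2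
    change X.R ⊗[ℂ] Y.R at r
    induction r using TensorProduct.induction_on with
    | zero => exact (map_zero f.φ).trans (map_zero g.φ).symm
    | add x y hx hy => exact (map_add f.φ x y).trans ((congrArg₂ _ hx hy).trans (map_add g.φ x y).symm)
    | tmul x y =>
      have e : (x ⊗ₜ[ℂ] y : X.R ⊗[ℂ] Y.R) = (x ⊗ₜ 1) * (1 ⊗ₜ y) := by simp
      rw [e]
      exact (map_mul f.φ _ _).trans ((congrArg₂ _ (a1 x) (a2 y)).trans (map_mul g.φ _ _).symm)
  · have a1 : ∀ x : X.J → ℤ, f.ρ (Sum.elim x 0) = g.ρ (Sum.elim x 0) :=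
      fun x => congrArg (fun u => u.ρ x) h1
    have a2 : ∀ y : Y.J → ℤ, f.ρ (Sum.elim 0 y) = g.ρ (Sum.elim 0 y) :=
      fun y => congrArg (fun u => u.ρ y) h2
    have e : γ = (Sum.elim (fun j => γ (.inl j)) 0 : X.J ⊕ Y.J → ℤ) +
        (Sum.elim 0 fun j => γ (.inr j) : X.J ⊕ Y.J → ℤ) := funext fun j => by
      rcases j with j | j
      · exact (add_zero _).symm
      · exact (zero_add _).symm
    rw [e]
    exact (map_add f.ρ _ _).trans ((congrArg₂ _ (a1 _) (a2 _)).trans (map_add g.ρ _ _).symm)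

theorem fst_lift' (f : Mor W X) (g : Mor W Y) (h : Mor X Z) :
    (h.comp (Mor.fst X Y)).comp (Mor.lift f g) = h.comp f := by rw [assoc, fst_lift]

theorem snd_lift' (f : Mor W X) (g : Mor W Y) (h : Mor Y Z) :
    (h.comp (Mor.snd X Y)).comp (Mor.lift f g) = h.comp g := by rw [assoc, snd_lift]

theorem lift_comp (f : Mor W X) (g : Mor W Y) (h : Mor V W) :
    (Mor.lift f g).comp h = Mor.lift (f.comp h) (g.comp h) :=
  prod_ext (by rw [← assoc, fst_lift, fst_lift]) (by rw [← assoc, snd_lift, snd_lift])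

theorem lift_eta : Mor.lift (Mor.fst X Y) (Mor.snd X Y) = Mor.id (X.prod Y) :=
  prod_ext (fst_lift _ _) (snd_lift _ _)

theorem lift_eta' (f : Mor W (X.prod Y)) :
    Mor.lift ((Mor.fst X Y).comp f) ((Mor.snd X Y).comp f) = f :=
  prod_ext (fst_lift _ _) (snd_lift _ _)

theorem map_def (f : Mor W X) (g : Mor Y Z) :
    f.map g = Mor.lift (f.comp (Mor.fst W Y)) (g.comp (Mor.snd W Y)) := rfl

theorem to_pt_ext (f g : Mor W (Spc.pt Empty)) : f = g :=
  ext (fun r => (f.φ.commutes r).trans (g.φ.commutes r).symm) fun γ => by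
    obtain rfl : γ = 0 := funext fun j => j.elim
    rw [map_zero, map_zero]

end Vale.Agent.P297Z.Ct
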