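import Mathlib

/-!
# P297: the substitution `f ↦ (1 + u y) ^ r f (y / (1 + u y))`
-/

set_option linter.all false

noncomputable section

namespace Vale.Agent.P297Z.Gd

open PowerSeries Finset

variable {R R' : Type*} [CommRing R] [CommRing R']

/-- the series `(1 + u y) ^ r` -/
def bin (u : R) (r : ℤ) : R⟦X⟧ := rescale u (binomialSeries R r)

theorem coeff_bin (u : R) (r : ℤ) (n : ℕ) : coeff n (bin u r) = Ring.choose r n • u ^ n := by
  rw [bin, coeff_rescale, binomialSeries_coeff, mul_smul_comm, mul_one]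

theorem bin_add (u : R) (r s : ℤ) : bin u (r + s) = bin u r * bin u s := by
  rw [bin, binomialSeries_add, map_mul]; rfl

theorem bin_nat (u : R) (n : ℕ) : bin u n = (1 + C u * X) ^ n := by
  rw [bin, binomialSeries_nat, map_pow, map_add, map_one, rescale_X]

theorem bin_zero (u : R) : bin u 0 = 1 := by simpa using bin_nat u 0

theorem bin_one (u : R) : bin u 1 = 1 + C u * X := by simpa using bin_nat u 1

/-- the twisted series -/
def twS (u : R) (r : ℤ) (f : R⟦X⟧) : R⟦X⟧ :=
  PowerSeries.mk fun i => ∑ j ∈ range (i + 1), Ring.choose (r - j) (i - j) • (u ^ (i - j) * coeff j f)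

theorem coeff_twS (u : R) (r : ℤ) (f : R⟦X⟧) (i : ℕ) : coeff i (twS u r f) =
    ∑ j ∈ range (i + 1), Ring.choose (r - j) (i - j) • (u ^ (i - j) * coeff j f) := coeff_mk _ _

theorem coeff_term (u c : R) (r : ℤ) (i j : ℕ) : coeff i (C c * X ^ j * bin u r) =
    if j ≤ i then Ring.choose r (i - j) • (u ^ (i - j) * c) else 0 := by
  rw [mul_assoc, coeff_C_mul, coeff_X_pow_mul']
  split_ifs
  · rw [coeff_bin, mul_smul_comm, mul_comm]
  · rw [mul_zero]

theorem coeff_twS' (u : R) (r : ℤ) (f : R⟦X⟧) {i N : ℕ} (h : i < N) : coeff i (twS u r f) =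
    coeff i (∑ j ∈ range N, C (coeff j f) * X ^ j * bin u (r - j)) := by
  rw [coeff_twS, map_sum, ← sum_subset (range_subset_range.2 (Nat.succ_le_of_lt h))]
  · exact sum_congr rfl fun j hj => by
      rw [coeff_term, if_pos (Nat.le_of_lt_succ (mem_range.1 hj))]
  · intro j _ hj
    rw [coeff_term, if_neg fun h' => hj (mem_range.2 (Nat.lt_succ_of_le h'))]

theorem twS_mul (u : R) (r s : ℤ) (f g : R⟦X⟧) :
    twS u (r + s) (f * g) = twS u r f * twS u s g := by
  ext i
  let φ : ℕ × ℕ → R := fun p =>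
    coeff i (C (coeff p.1 f * coeff p.2 g) * X ^ (p.1 + p.2) * bin u (r + s - (p.1 + p.2 : ℕ)))
  have h1 : coeff i (twS u r f * twS u s g) = ∑ p ∈ range (i + 1) ×ˢ range (i + 1), φ p := by
    have : coeff i (twS u r f * twS u s g) =
        coeff i ((∑ j ∈ range (i + 1), C (coeff j f) * X ^ j * bin u (r - j)) *
          ∑ j ∈ range (i + 1), C (coeff j g) * X ^ j * bin u (s - j)) := by
      rw [coeff_mul, coeff_mul]
      refine sum_congr rfl fun p hp => ?_
      have := mem_antidiagonal.1 hp
      rw [coeff_twS' u r f (N := i + 1) (by omega), coeff_twS' u s g (N := i + 1) (by omega)]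
    rw [this, sum_mul_sum, sum_product, map_sum]
    refine sum_congr rfl fun j _ => ?_
    rw [map_sum]
    refine sum_congr rfl fun l _ => ?_
    have e : r + s - ((j + l : ℕ) : ℤ) = (r - j) + (s - l) := by push_cast; ring
    simp only [φ]
    rw [e, bin_add, map_mul C, pow_add]
    congr 1; ring
  have h2 : coeff i (twS u (r + s) (f * g)) = ∑ n ∈ range (i + 1), ∑ p ∈ antidiagonal n, φ p := by
    rw [coeff_twS' u _ _ (Nat.lt_succ_self i), map_sum]
    refine sum_congr rfl fun n _ => ?_
    rw [coeff_mul (n := n) f g, map_sum, sum_mul, sum_mul, map_sum]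
    refine sum_congr rfl fun p hp => ?_
    simp only [φ]
    rw [mem_antidiagonal.1 hp]
  rw [h1, h2, ← sum_filter_of_ne (p := fun p : ℕ × ℕ => p.1 + p.2 ≤ i),
    ← sum_fiberwise_of_maps_to (t := range (i + 1)) (g := fun p : ℕ × ℕ => p.1 + p.2)]
  · refine sum_congr rfl fun n hn => sum_congr ?_ fun _ _ => rfl
    ext p
    have := mem_range.1 hn
    simp only [HasAntidiagonal.mem_antidiagonal, mem_filter, mem_product, mem_range]
    omega
  · intro p hp
    exact mem_range.2 (Nat.lt_succ_of_le (mem_filter.1 hp).2)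
  · intro p _ hp
    by_contra h
    apply hp
    simp only [φ]
    rw [coeff_term, if_neg h]

theorem twS_one (u : R) (r : ℤ) : twS u r 1 = bin u r := by
  ext i
  rw [coeff_twS, coeff_bin, sum_eq_single 0]
  · simp
  · intro j _ hj
    rw [coeff_one, if_neg hj, mul_zero, smul_zero]
  · intro h; exact (h (mem_range.2 (Nat.succ_pos i))).elim

theorem twS_line (u v : R) : twS u 1 (1 + C v * X) = 1 + C (u + v) * X := by
  ext i
  rw [coeff_twS' u 1 _ (N := i + 2) (by omega), sum_range_succ', sum_range_succ', sum_eq_zero]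
  · congr 1
    simp [bin_zero, bin_one, coeff_one, coeff_X]
    ring
  · intro j _
    simp [coeff_one, coeff_X]

theorem map_twS (φ : R →+* R') (u : R) (r : ℤ) (f : R⟦X⟧) :
    PowerSeries.map φ (twS u r f) = twS (φ u) r (PowerSeries.map φ f) := by
  ext i
  simp [coeff_twS]

theorem eq_of_mul_eq_one {a b c : R} (h : a * c = 1) (h' : b * c = 1) : a = b := by
  rw [← one_mul a, ← h', mul_assoc, mul_comm c, h, mul_one]

end Vale.Agent.P297Z.Gd
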