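import Vale.Agent.P297Z.Gd.Push
import Vale.Agent.P297Z.Gd.Tw

/-!
# P297: Chern classes in the graded ring
-/

set_option linter.all false

noncomputable section

namespace Vale.Agent.P297Z

open Gd PowerSeries

variable {V W X Y Z : Spc} {k : Type} [CommRing k]

variable (k) in
/-- the pull-back as a ring map -/
def GA.pullR (f : Mor W X) : GA k X →+* GA k W := (GA.pull (k := k) f).toRingHom

theorem GA.pullR_apply (f : Mor W X) (x : GA k X) : GA.pullR k f x = GA.pull f x := rfl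

/-! ### leading parts of power series -/

/-- the coefficient of `y ^ i` has degree `i` -/
def Adm (s : (K0 X)⟦X⟧) : Prop := ∀ i, coeff i s ∈ FF X i

variable (k) in
/-- the leading part of a series -/
def ld (s : (K0 X)⟦X⟧) : (GA k X)⟦X⟧ := PowerSeries.mk fun i => amk k i (coeff i s)

theorem coeff_ld (s : (K0 X)⟦X⟧) (i : ℕ) : coeff i (ld k s) = amk k i (coeff i s) := coeff_mk _ _

namespace Adm

variable {s t : (K0 X)⟦X⟧}

theorem one : Adm (1 : (K0 X)⟦X⟧) := fun i => by
  rw [coeff_one]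
  split_ifs with h
  · rw [h]; exact Gd.mem_FF_zero _
  · exact zero_mem _

theorem add (hs : Adm s) (ht : Adm t) : Adm (s + t) := fun i => by
  rw [map_add]; exact add_mem (hs i) (ht i)

theorem mul (hs : Adm s) (ht : Adm t) : Adm (s * t) := fun i => by
  rw [coeff_mul]
  refine sum_mem fun p hp => ?_
  rw [← Finset.HasAntidiagonal.mem_antidiagonal.1 hp]
  exact Gd.FF_mul (hs _) (ht _)

theorem prod {ι : Type*} (u : Finset ι) {f : ι → (K0 X)⟦X⟧} (h : ∀ i ∈ u, Adm (f i)) :
    Adm (∏ i ∈ u, f i) := Finset.prod_induction f Adm (fun _ _ => mul) one h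

theorem mono {n : ℕ} {a : K0 X} (ha : a ∈ FF X n) : Adm (C a * PowerSeries.X ^ n) := fun i => by
  rw [coeff_C_mul, coeff_X_pow]
  split_ifs with h
  · rw [h, mul_one]; exact ha
  · rw [mul_zero]; exact zero_mem _

theorem mono1 {a : K0 X} (ha : a ∈ FF X 1) : Adm (C a * PowerSeries.X) := by
  simpa using mono ha

theorem map (hs : Adm s) (f : Mor W X) : Adm (PowerSeries.map (pullK f) s) := fun i => by
  rw [coeff_map]; exact Gd.FF_pull f (hs i)

theorem rescale (hs : Adm s) (c : K0 X) : Adm (rescale c s) := fun i => by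
  rw [coeff_rescale]; exact Gd.FF_mul_left _ (hs i)

theorem cT (a : K0 X) : Adm (cT a) := fun i => by
  rw [P297Z.cT, coeff_mk]; exact Nd.cc_mem_FF i a

end Adm

section ld

variable {s t : (K0 X)⟦X⟧}

theorem ld_one : ld k (1 : (K0 X)⟦X⟧) = 1 := by
  ext i
  rw [coeff_ld, coeff_one, coeff_one]
  split_ifs with h
  · rw [h, amk_one]
  · exact amk_zero _

theorem ld_add (hs : Adm s) (ht : Adm t) : ld k (s + t) = ld k s + ld k t := by
  ext i
  rw [map_add, coeff_ld, coeff_ld, coeff_ld, map_add, amk_add (hs i) (ht i)]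

theorem ld_mul (hs : Adm s) (ht : Adm t) : ld k (s * t) = ld k s * ld k t := by
  ext i
  rw [coeff_ld, coeff_mul, coeff_mul, amk_sum]
  · refine Finset.sum_congr rfl fun p hp => ?_
    rw [← Finset.HasAntidiagonal.mem_antidiagonal.1 hp, amk_mul (hs _) (ht _), coeff_ld, coeff_ld]
  · intro p hp
    rw [← Finset.HasAntidiagonal.mem_antidiagonal.1 hp]
    exact Gd.FF_mul (hs _) (ht _)

theorem ld_prod {ι : Type*} (u : Finset ι) {f : ι → (K0 X)⟦X⟧} (h : ∀ i ∈ u, Adm (f i)) :
    ld k (∏ i ∈ u, f i) = ∏ i ∈ u, ld k (f i) := by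
  classical
  induction u using Finset.induction_on with
  | empty => simpa using ld_one
  | insert a u ha ih =>
    rw [Finset.prod_insert ha, Finset.prod_insert ha, ld_mul (h a (Finset.mem_insert_self _ _))
      (Adm.prod u fun i hi => h i (Finset.mem_insert_of_mem hi)),
      ih fun i hi => h i (Finset.mem_insert_of_mem hi)]

theorem ld_mono (n : ℕ) (a : K0 X) :
    ld k (C a * PowerSeries.X ^ n) = C (amk k n a) * PowerSeries.X ^ n := by
  ext i
  rw [coeff_ld, coeff_C_mul, coeff_C_mul, coeff_X_pow, coeff_X_pow]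
  split_ifs with h
  · rw [h, mul_one, mul_one]
  · rw [mul_zero, mul_zero, amk_zero]

theorem ld_mono1 (a : K0 X) : ld k (C a * PowerSeries.X) = C (amk k 1 a) * PowerSeries.X := by
  simpa using ld_mono (k := k) 1 a

theorem ld_map (hs : Adm s) (f : Mor W X) :
    ld k (PowerSeries.map (pullK f) s) = PowerSeries.map (GA.pullR k f) (ld k s) := by
  ext i
  rw [coeff_ld, coeff_map, coeff_map, coeff_ld]
  exact (GA.pull_amk f (hs i)).symm

theorem ld_rescale_neg (hs : Adm s) : ld k (rescale (-1) s) = rescale (-1) (ld k s) := by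
  ext i
  rw [coeff_ld, coeff_rescale, coeff_rescale, coeff_ld]
  rcases neg_one_pow_eq_or (ℤ) i with h | h
  · have h1 : (-1 : K0 X) ^ i = 1 := by exact_mod_cast congrArg (Int.cast : ℤ → K0 X) h
    have h2 : (-1 : GA k X) ^ i = 1 := by exact_mod_cast congrArg (Int.cast : ℤ → GA k X) h
    rw [h1, h2, one_mul, one_mul]
  · have h1 : (-1 : K0 X) ^ i = -1 := by exact_mod_cast congrArg (Int.cast : ℤ → K0 X) h
    have h2 : (-1 : GA k X) ^ i = -1 := by exact_mod_cast congrArg (Int.cast : ℤ → GA k X) h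
    rw [h1, h2, neg_one_mul, neg_one_mul, amk_neg (hs i)]

end ld

/-! ### Chern classes -/

variable (k) in
/-- the Chern class in the graded ring -/
def gc (i : ℕ) (a : K0 X) : GA k X := amk k i (cc i a)

variable (k) in
/-- the total Chern class in the graded ring -/
def cA (a : K0 X) : (GA k X)⟦X⟧ := ld k (cT a)

theorem coeff_cA (a : K0 X) (i : ℕ) : coeff i (cA k a) = gc k i a := by
  rw [cA, coeff_ld, cT, coeff_mk]; rfl

theorem cA_add (a b : K0 X) : cA k (a + b) = cA k a * cA k b := by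
  rw [cA, Nd.cT_add, ld_mul (Adm.cT a) (Adm.cT b)]; rfl

theorem cA_zero : cA k (0 : K0 X) = 1 := by rw [cA, Nd.cT_zero, ld_one]

theorem cA_neg_mul (a : K0 X) : cA k (-a) * cA k a = 1 := by
  rw [← cA_add, neg_add_cancel, cA_zero]

theorem cA_sub_mul (a b : K0 X) : cA k (a - b) * cA k b = cA k a := by
  rw [← cA_add, sub_add_cancel]

theorem gc_zero (a : K0 X) : gc k 0 a = 1 := by rw [gc, Nd.cc_zero, amk_one]

theorem pull_gc (f : Mor W X) (i : ℕ) (a : K0 X) : GA.pull f (gc k i a) = gc k i (pullK f a) := by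
  rw [gc, GA.pull_amk f (Nd.cc_mem_FF i a), Nd.cc_pull]; rfl

theorem map_cA (f : Mor W X) (a : K0 X) :
    PowerSeries.map (GA.pullR k f) (cA k a) = cA k (pullK f a) := by
  ext i
  rw [coeff_map, coeff_cA, coeff_cA]
  exact pull_gc f i a

theorem gc_add (i : ℕ) (a b : K0 X) :
    gc k i (a + b) = ∑ p ∈ Finset.HasAntidiagonal.antidiagonal i, gc k p.1 a * gc k p.2 b := by
  rw [← coeff_cA, cA_add, coeff_mul]
  simp only [coeff_cA]

theorem sub_mem_FF_one (a : K0 X) : (rk X a : K0 X) - a ∈ FF X 1 := by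
  rw [← Nd.cc_one]; exact Nd.cc_mem_FF 1 a

theorem Gd.mem_FF_one {a : K0 X} (h : rk X a = 0) : a ∈ FF X 1 := by
  have := neg_mem (sub_mem_FF_one a)
  rwa [h, Int.cast_zero, zero_sub, neg_neg] at this

theorem gc_one (a : K0 X) : gc k 1 a = amk k 1 ((rk X a : K0 X) - a) := by rw [gc, Nd.cc_one]

theorem gc_one_add (a b : K0 X) : gc k 1 (a + b) = gc k 1 a + gc k 1 b := by
  rw [gc_add, Finset.Nat.antidiagonal_succ, Finset.sum_cons]
  simp [gc_zero, add_comm]

namespace IsCls

variable {a b l m : K0 X} {r s : ℕ}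

theorem rk_eq (h : IsCls a r) : rk X a = r := by
  obtain ⟨B, rfl, rfl⟩ := h
  exact rk_cls B

theorem of_bun {M : GMod X} (h : M.IsBun r) : IsCls (kc M r) r := ⟨⟨M, r, h⟩, rfl, (kc_eq h).symm⟩

theorem cls (B : Bun X) : IsCls B.cls B.rk := ⟨B, rfl, rfl⟩

theorem pull (h : IsCls a r) (f : Mor W X) : IsCls (pullK f a) r := by
  obtain ⟨B, rfl, rfl⟩ := h
  rw [pullK_cls]
  exact of_bun (B.free.pull f)

theorem dual (h : IsCls a r) : IsCls (dualK X a) r := by
  obtain ⟨B, rfl, rfl⟩ := h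
  rw [dualK_cls]
  exact of_bun B.free.dual

theorem mul (h : IsCls a r) (h' : IsCls b s) : IsCls (a * b) (r * s) := by
  obtain ⟨B, rfl, rfl⟩ := h
  obtain ⟨B', rfl, rfl⟩ := h'
  rw [← kc_bun, ← kc_bun, ← kc_ten B.free B'.free]
  exact of_bun (B.free.ten B'.free)

theorem add (h : IsCls a r) (h' : IsCls b s) : IsCls (a + b) (r + s) := by
  obtain ⟨B, rfl, rfl⟩ := h
  obtain ⟨B', rfl, rfl⟩ := h'
  rw [← kc_bun, ← kc_bun, ← kc_prod B.free B'.free]
  exact of_bun (B.free.prod B'.free)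

theorem mul1 (h : IsCls l 1) (h' : IsCls m 1) : IsCls (l * m) 1 := h.mul h'

theorem line (γ : X.J → ℤ) : IsCls (line X γ) 1 := of_bun ((GMod.isBun_one X).shift γ)

theorem one : IsCls (1 : K0 X) 1 := by rw [← line_zero]; exact line 0

theorem mul_dual (h : IsCls l 1) : l * dualK X l = 1 := by
  obtain ⟨B, hB, rfl⟩ := h
  rw [← kc_bun, hB]
  exact kc_mul_dual (hB ▸ B.free)

theorem sub_mem (h : IsCls l 1) : 1 - l ∈ FF X 1 := by
  have := sub_mem_FF_one l
  rwa [h.rk_eq, Nat.cast_one, Int.cast_one] at this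

theorem gc_one (h : IsCls l 1) : gc k 1 l = amk k 1 (1 - l) := by
  rw [P297Z.gc_one, h.rk_eq, Nat.cast_one, Int.cast_one]

theorem cA_eq (h : IsCls l 1) : cA k l = 1 + C (gc k 1 l) * PowerSeries.X := by
  rw [cA, Nd.cT_cls h, ld_add Adm.one (Adm.mono1 h.sub_mem), ld_one, ld_mono1, h.gc_one]

theorem gc_mul (h : IsCls l 1) (h' : IsCls m 1) : gc k 1 (l * m) = gc k 1 l + gc k 1 m := by
  rw [h.gc_one, h'.gc_one, (h.mul1 h').gc_one, ← amk_add h.sub_mem h'.sub_mem]
  refine amk_congr (add_mem h.sub_mem h'.sub_mem) ?_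
  have e : 1 - l * m - (1 - l + (1 - m)) = -((1 - l) * (1 - m)) := by ring
  rw [e]
  exact neg_mem (Gd.FF_mul h.sub_mem h'.sub_mem)

theorem gc_dual (h : IsCls l 1) : gc k 1 (dualK X l) = -gc k 1 l := by
  rw [eq_neg_iff_add_eq_zero, add_comm, ← h.gc_mul h.dual, h.mul_dual, one.gc_one, sub_self,
    amk_zero]

end IsCls

theorem gc_one_one : gc k 1 (1 : K0 X) = 0 := by rw [IsCls.one.gc_one, sub_self, amk_zero]

theorem cA_one : cA k (1 : K0 X) = 1 := by rw [IsCls.one.cA_eq, gc_one_one, map_zero, zero_mul, add_zero]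

/-! ### the splitting principle -/

theorem Nd.Dom.smul_eq_zero {π : Mor V W} (h : Nd.Dom π) (hV : V.Free) (hW : W.Free) {x : GA k W}
    (hx : GA.pull π x = 0) (g : GH k W) : x • g = 0 := by
  obtain ⟨p, h1, h2⟩ := h
  have hp : ∀ d, ∀ g ∈ Fd V (d + 0), p g ∈ Fd W (d + 0) := fun d g hg =>
    h2 (d + 0) ▸ AddSubgroup.mem_map_of_mem p hg
  induction g using GH.induction with
  | h0 => exact smul_zero _
  | ha a b ha hb => rw [smul_add, ha, hb, add_zero]
  | hs c a ha => rw [smul_comm, ha, smul_zero]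
  | hm d g hg =>
    rw [← h2] at hg
    obtain ⟨g', hg', rfl⟩ := hg
    have e : hmk k d (p g') = GH.map p 0 0 hp (hmk k d g') := by
      rw [GH.map_hmk hV hg', if_pos (Nat.zero_le _)]; rfl
    rw [e, ← GH.map_proj hV hW π h1, hx, zero_smul, map_zero]

/-- a sum of `r` line bundles -/
def Spl (a : K0 X) (r : ℕ) : Prop :=
  ∃ l : List (X.J → ℤ), l.length = r ∧ a = (l.map (line X)).sum

theorem Spl.pull {a : K0 X} {r : ℕ} (h : Spl a r) (f : Mor W X) : Spl (pullK f a) r := by
  obtain ⟨l, rfl, rfl⟩ := h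
  refine ⟨l.map f.ρ, List.length_map _, ?_⟩
  rw [map_list_sum, List.map_map, List.map_map]
  congr 1
  exact List.map_congr_left fun γ _ => pullK_line f γ

theorem GA.split_ext {a : K0 X} {r : ℕ} (ha : IsCls a r) {x y : GA k X}
    (h : ∀ (W : Spc) (f : Mor W X), W.Free → Spl (pullK f a) r → GA.pull f x = GA.pull f y) :
    x = y := by
  refine GA.ext fun W f hW g => ?_
  obtain ⟨B, hB, hB'⟩ := ha.pull f
  obtain ⟨V, π, hV, hπ, l, hl, hl'⟩ := Nd.split hW B
  rw [← sub_eq_zero, ← sub_smul]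
  refine hπ.smul_eq_zero hV hW ?_ g
  rw [map_sub, ← GA.pull_comp, ← GA.pull_comp, h V _ hV ⟨l, hl.trans hB, ?_⟩, sub_self]
  rw [pullK_comp, ← hB', hl']

theorem GA.split_ext' {a : K0 X} {r : ℕ} (ha : IsCls a r) {x y : (GA k X)⟦X⟧}
    (h : ∀ (W : Spc) (f : Mor W X), W.Free → Spl (pullK f a) r →
      PowerSeries.map (GA.pullR k f) x =
        PowerSeries.map (GA.pullR k f) y) : x = y := by
  ext i
  exact GA.split_ext ha fun W f hW hs => by
    have := congrArg (coeff i) (h W f hW hs)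
    rwa [coeff_map, coeff_map] at this

/-- two multiplicative maps that agree on bundles agree -/
theorem mult_ext {R : Type*} [CommRing R] {φ ψ : K0 X → R} (hφ : ∀ a b, φ (a + b) = φ a * φ b)
    (hψ : ∀ a b, ψ (a + b) = ψ a * ψ b) (hφ0 : φ 0 = 1)
    (h : ∀ B : Bun X, φ B.cls = ψ B.cls) (a : K0 X) : φ a = ψ a := by
  obtain ⟨B, B', rfl⟩ := K0_induction a
  have h1 : φ B'.cls * φ (-B'.cls) = 1 := by rw [← hφ, add_neg_cancel, hφ0]
  have h2 : φ (B.cls - B'.cls) * φ B'.cls = ψ (B.cls - B'.cls) * φ B'.cls := by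
    rw [← hφ, h B', ← hψ, sub_add_cancel, h B]
  rw [← mul_one (φ _), ← h1, ← mul_assoc, h2, mul_assoc, h1, mul_one]

theorem list_ext {R : Type*} [CommRing R] {φ ψ : K0 X → R} (hφ : ∀ a b, φ (a + b) = φ a * φ b)
    (hψ : ∀ a b, ψ (a + b) = ψ a * ψ b) (h0 : φ 0 = ψ 0)
    (h : ∀ γ, φ (line X γ) = ψ (line X γ)) {a : K0 X} {r : ℕ} (ha : Spl a r) : φ a = ψ a := by
  obtain ⟨l, -, rfl⟩ := ha
  induction l with
  | nil => exact h0
  | cons γ l ih => rw [List.map_cons, List.sum_cons, hφ, hψ, h, ih]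

/-- the Chern classes of a twist -/
theorem cA_twist {l : K0 X} (hl : IsCls l 1) (a : K0 X) :
    cA k (l * a) = twS (gc k 1 l) (rk X a) (cA k a) := by
  have m1 : ∀ {W : Spc} (l a b : K0 W), cA k (l * (a + b)) = cA k (l * a) * cA k (l * b) :=
    fun l a b => by rw [mul_add, cA_add]
  have m2 : ∀ {W : Spc} (u : GA k W) (a b : K0 W), twS u (rk W (a + b)) (cA k (a + b)) =
      twS u (rk W a) (cA k a) * twS u (rk W b) (cA k b) :=
    fun u a b => by rw [map_add, cA_add, twS_mul]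
  refine mult_ext (φ := fun a => cA k (l * a)) (ψ := fun a => twS (gc k 1 l) (rk X a) (cA k a))
    (m1 l) (m2 _) (by simp only [mul_zero, cA_zero]) (fun B => ?_) a
  refine GA.split_ext' (IsCls.cls B) fun W f _ hs => ?_
  rw [map_cA, map_twS, map_cA, map_mul, ← rk_pullK f, GA.pullR_apply, pull_gc]
  refine list_ext (φ := fun a => cA k (pullK f l * a))
    (ψ := fun a => twS (gc k 1 (pullK f l)) (rk W a) (cA k a)) (m1 _) (m2 _) ?_ (fun γ => ?_) hs
  · simp only [mul_zero, cA_zero, map_zero, twS_one, bin_zero]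
  · simp only [rk_line]
    rw [((hl.pull f).mul1 (IsCls.line γ)).cA_eq, (IsCls.line γ).cA_eq, twS_line,
      (hl.pull f).gc_mul (IsCls.line γ)]

theorem gc_twist {l : K0 X} (hl : IsCls l 1) (a : K0 X) (i : ℕ) :
    gc k i (l * a) = ∑ j ∈ Finset.range (i + 1),
      Ring.choose (rk X a - j) (i - j) • (gc k 1 l ^ (i - j) * gc k j a) := by
  rw [← coeff_cA, cA_twist hl, coeff_twS]
  simp only [coeff_cA]

/-- the Chern classes of the dual -/
theorem cA_dual (a : K0 X) : cA k (dualK X a) = rescale (-1) (cA k a) := by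
  have m1 : ∀ {W : Spc} (a b : K0 W), cA k (dualK W (a + b)) = cA k (dualK W a) * cA k (dualK W b) :=
    fun a b => by rw [map_add, cA_add]
  have m2 : ∀ {W : Spc} (a b : K0 W), rescale (-1) (cA k (a + b)) =
      rescale (-1) (cA k a) * rescale (-1) (cA k b) := fun a b => by rw [cA_add, map_mul]
  refine mult_ext (φ := fun a => cA k (dualK X a)) (ψ := fun a => rescale (-1) (cA k a))
    m1 m2 (by simp only [map_zero, cA_zero]) (fun B => ?_) a
  refine GA.split_ext' (IsCls.cls B) fun W f _ hs => ?_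
  have e : PowerSeries.map (GA.pullR k f) (rescale (-1) (cA k B.cls)) =
      rescale (-1) (cA k (pullK f B.cls)) := by
    rw [← map_cA]
    ext i
    simp only [coeff_map, coeff_rescale, map_mul, map_pow, map_neg, map_one]
  rw [map_cA, pullK_dualK, e]
  refine list_ext (φ := fun a => cA k (dualK W a)) (ψ := fun a => rescale (-1) (cA k a)) m1 m2 ?_
    (fun γ => ?_) hs
  · simp only [map_zero, cA_zero, map_one]
  · rw [(IsCls.line γ).dual.cA_eq, (IsCls.line γ).cA_eq, (IsCls.line γ).gc_dual, map_add, map_one]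
    congr 1
    ext i
    rw [coeff_rescale, coeff_C_mul, coeff_C_mul, coeff_X]
    split_ifs with h
    · rw [h]; ring
    · ring

theorem gc_dual (i : ℕ) (a : K0 X) : gc k i (dualK X a) = (-1) ^ i * gc k i a := by
  rw [← coeff_cA, cA_dual, coeff_rescale, coeff_cA]

/-- the Chern classes vanish above the rank -/
theorem IsCls.gc_eq_zero {a : K0 X} {r i : ℕ} (h : IsCls a r) (hi : r < i) : gc k i a = 0 := by
  refine GA.split_ext h fun W f _ hs => ?_
  rw [pull_gc, map_zero]
  obtain ⟨l, rfl, hl⟩ := hs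
  rw [hl]
  clear hl h
  induction l generalizing i with
  | nil => rw [List.map_nil, List.sum_nil, ← coeff_cA, cA_zero, coeff_one, if_neg (by simpa using hi.ne')]
  | cons γ l ih =>
    obtain ⟨j, rfl⟩ : ∃ j, i = j + 1 := ⟨i - 1, by simp at hi; omega⟩
    simp only [List.length_cons] at hi
    rw [List.map_cons, List.sum_cons, ← coeff_cA, cA_add, (IsCls.line γ).cA_eq, add_mul, one_mul,
      map_add, mul_assoc, coeff_C_mul, coeff_succ_X_mul, coeff_cA, coeff_cA, ih (by omega),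
      ih (by omega), mul_zero, add_zero]

/-- the first Chern class of the determinant -/
theorem IsCls.amk_det {a : K0 X} {r : ℕ} (h : IsCls a r) (h' : IsCls (lam r a) 1) :
    gc k 1 (lam r a) = gc k 1 a := by
  refine GA.split_ext h fun W f _ hs => ?_
  rw [pull_gc, pull_gc, Nd.lam_pull]
  obtain ⟨l, rfl, hl⟩ := hs
  rw [hl, Nd.lam_top]
  clear hl h h'
  suffices H : IsCls (l.map (P297Z.line W)).prod 1 ∧
      gc k 1 (l.map (P297Z.line W)).prod = gc k 1 (l.map (P297Z.line W)).sum from H.2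
  induction l with
  | nil =>
    refine ⟨IsCls.one, ?_⟩
    rw [List.map_nil, List.sum_nil, List.prod_nil, gc_one_one, ← coeff_cA, cA_zero, coeff_one,
      if_neg one_ne_zero]
  | cons γ l ih =>
    rw [List.map_cons, List.sum_cons, List.prod_cons]
    exact ⟨(IsCls.line γ).mul1 ih.1, by rw [(IsCls.line γ).gc_mul ih.1, gc_one_add, ih.2]⟩

end Vale.Agent.P297Z
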