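import Vale.Agent.P297Z.Gd.Need

/-!
# P297: the graded group of the dimension filtration
-/

set_option linter.all false

noncomputable section

namespace Vale.Agent.P297Z

variable {W X Y Z : Spc}

namespace Gd

theorem Fl_mono {d d' : ℕ} (h : d ≤ d') : Fl X d ≤ Fl X d' := by
  refine AddSubgroup.closure_mono ?_
  rintro x ⟨M, hM, rfl⟩
  exact ⟨M, hM.trans_le (by exact_mod_cast h), rfl⟩

theorem Fd_mono {d d' : ℕ} (h : d ≤ d') {g : G X} (hg : g ∈ Fd X d) : g ∈ Fd X d' :=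
  Fl_mono (Nat.add_le_add_right h _) hg

theorem kact_Fd (a : K0 X) {d : ℕ} {g : G X} (hg : g ∈ Fd X d) : kact X a g ∈ Fd X d :=
  Nd.kact_Fl a hg

theorem mem_FF_zero (a : K0 X) : a ∈ FF X 0 := fun _ _ _ _ _ hx => Nd.kact_Fl _ hx

theorem FF_anti {i j : ℕ} (h : i ≤ j) {a : K0 X} (ha : a ∈ FF X j) : a ∈ FF X i :=
  fun W f hW d x hx => ha W f hW d x (Fl_mono (Nat.add_le_add_left h _) hx)

theorem FF_mul {i j : ℕ} {a b : K0 X} (ha : a ∈ FF X i) (hb : b ∈ FF X j) :
    a * b ∈ FF X (i + j) := fun W f hW d x hx => by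
  rw [map_mul, kact_mul]
  exact ha W f hW d _ (hb W f hW (d + i) x (by rwa [add_assoc]))

theorem FF_mul_left {i : ℕ} (a : K0 X) {b : K0 X} (hb : b ∈ FF X i) : a * b ∈ FF X i := by
  simpa using FF_mul (mem_FF_zero a) hb

theorem FF_pow {i : ℕ} {a : K0 X} (ha : a ∈ FF X i) (n : ℕ) : a ^ n ∈ FF X (n * i) := by
  induction n with
  | zero => simpa using mem_FF_zero _
  | succ n ih => rw [pow_succ, Nat.succ_mul]; exact FF_mul ih ha

theorem FF_pull (f : Mor W X) {i : ℕ} {a : K0 X} (ha : a ∈ FF X i) : pullK f a ∈ FF W i :=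
  fun V g hV d x hx => by
    rw [← pullK_comp]
    exact ha V _ hV d x hx

theorem FF_act (hW : W.Free) {i d : ℕ} {a : K0 W} (ha : a ∈ FF W i) {g : G W}
    (hg : g ∈ Fd W (d + i)) : kact W a g ∈ Fd W d := by
  have := ha W (Mor.id W) hW (d + Fintype.card W.J) g (by
    have e : d + Fintype.card W.J + i = d + i + Fintype.card W.J := by ring
    rw [e]; exact hg)
  rwa [pullK_id] at this

theorem FF_act' (hW : W.Free) {i d : ℕ} {a : K0 W} (ha : a ∈ FF W i) {g : G W}
    (hg : g ∈ Fd W d) : kact W a g ∈ Fd W (d - i) :=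
  FF_act hW ha (Fd_mono (by omega) hg)

theorem FF_act_zero (hW : W.Free) {i d : ℕ} {a : K0 W} (ha : a ∈ FF W i) {g : G W}
    (hg : g ∈ Fd W d) (h : d ≤ i) : kact W a g = 0 := by
  have := FF_act' hW ha hg
  rwa [Nat.sub_eq_zero_of_le h, Nd.Fd_zero hW, AddSubgroup.mem_bot] at this

theorem mem_FF_iff {i : ℕ} {a : K0 X} : a ∈ FF X i ↔ ∀ (W : Spc) (f : Mor W X), W.Free →
    ∀ d, ∀ g ∈ Fd W (d + i), kact W (pullK f a) g ∈ Fd W d := by
  refine ⟨fun ha W f hW d g hg => FF_act hW (FF_pull f ha) hg, fun h W f hW d x hx => ?_⟩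
  by_cases hd : Fintype.card W.J ≤ d
  · obtain ⟨e, rfl⟩ := Nat.exists_eq_add_of_le' hd
    refine h W f hW e x ?_
    have e1 : e + Fintype.card W.J + i = e + i + Fintype.card W.J := by ring
    rw [e1] at hx; exact hx
  · have := h W f hW 0 x (Fl_mono (by omega) hx)
    rw [Nd.Fd_zero hW, AddSubgroup.mem_bot] at this
    rw [this]; exact zero_mem _

end Gd

open Gd

variable (k : Type) [CommRing k]

/-- the relations of the graded group -/
def HRel (X : Spc) : Submodule k (ℕ × G X →₀ k) :=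
  Submodule.span k ({x | ∃ d g g', g ∈ Fd X (d + 1) ∧ g' ∈ Fd X (d + 1) ∧
      x = Finsupp.single (d, g + g') 1 - Finsupp.single (d, g) 1 - Finsupp.single (d, g') 1} ∪
    {x | ∃ d g, (g ∈ Fd X d ∨ g ∉ Fd X (d + 1) ∨ ¬X.Free) ∧ x = Finsupp.single (d, g) 1})

/-- the graded group of the dimension filtration, with coefficients in `k` -/
def GH (X : Spc) : Type 1 := (ℕ × G X →₀ k) ⧸ HRel k X

instance (X : Spc) : AddCommGroup (GH k X) :=
  inferInstanceAs (AddCommGroup ((ℕ × G X →₀ k) ⧸ HRel k X))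

instance (X : Spc) : Module k (GH k X) :=
  inferInstanceAs (Module k ((ℕ × G X →₀ k) ⧸ HRel k X))

/-- the leading part of a class of dimension at most `d` -/
def hmk (d : ℕ) (g : G X) : GH k X := Submodule.Quotient.mk (Finsupp.single (d, g) 1)

variable {k}

theorem hmk_add {d : ℕ} {g g' : G X} (hg : g ∈ Fd X (d + 1)) (hg' : g' ∈ Fd X (d + 1)) :
    hmk k d (g + g') = hmk k d g + hmk k d g' := by
  rw [← sub_eq_zero, ← sub_sub]
  exact (Submodule.Quotient.mk_eq_zero (HRel k X)).2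
    (Submodule.subset_span (Or.inl ⟨d, g, g', hg, hg', rfl⟩))

theorem hmk_of_mem {d : ℕ} {g : G X} (hg : g ∈ Fd X d) : hmk k d g = 0 :=
  (Submodule.Quotient.mk_eq_zero (HRel k X)).2
    (Submodule.subset_span (Or.inr ⟨d, g, Or.inl hg, rfl⟩))

theorem hmk_of_not_mem {d : ℕ} {g : G X} (hg : g ∉ Fd X (d + 1)) : hmk k d g = 0 :=
  (Submodule.Quotient.mk_eq_zero (HRel k X)).2
    (Submodule.subset_span (Or.inr ⟨d, g, Or.inr (Or.inl hg), rfl⟩))

theorem hmk_of_not_free (h : ¬X.Free) (d : ℕ) (g : G X) : hmk k d g = 0 :=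
  (Submodule.Quotient.mk_eq_zero (HRel k X)).2
    (Submodule.subset_span (Or.inr ⟨d, g, Or.inr (Or.inr h), rfl⟩))

theorem hmk_zero (d : ℕ) : hmk k d (0 : G X) = 0 := hmk_of_mem (zero_mem _)

variable (k) in
/-- the leading part as an additive map -/
def hmkHom (X : Spc) (d : ℕ) : Fd X (d + 1) →+ GH k X where
  toFun g := hmk k d g.1
  map_zero' := hmk_zero d
  map_add' g g' := hmk_add g.2 g'.2

theorem hmk_neg {d : ℕ} {g : G X} (hg : g ∈ Fd X (d + 1)) : hmk k d (-g) = -hmk k d g :=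
  map_neg (hmkHom k X d) ⟨g, hg⟩

theorem hmk_sub {d : ℕ} {g g' : G X} (hg : g ∈ Fd X (d + 1)) (hg' : g' ∈ Fd X (d + 1)) :
    hmk k d (g - g') = hmk k d g - hmk k d g' :=
  map_sub (hmkHom k X d) ⟨g, hg⟩ ⟨g', hg'⟩

theorem hmk_zsmul {d : ℕ} {g : G X} (hg : g ∈ Fd X (d + 1)) (n : ℤ) :
    hmk k d (n • g) = n • hmk k d g :=
  map_zsmul (hmkHom k X d) n ⟨g, hg⟩

theorem hmk_nsmul {d : ℕ} {g : G X} (hg : g ∈ Fd X (d + 1)) (n : ℕ) :
    hmk k d (n • g) = n • hmk k d g :=
  map_nsmul (hmkHom k X d) n ⟨g, hg⟩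

theorem hmk_sum {ι : Type*} (s : Finset ι) {d : ℕ} {g : ι → G X}
    (hg : ∀ i ∈ s, g i ∈ Fd X (d + 1)) : hmk k d (∑ i ∈ s, g i) = ∑ i ∈ s, hmk k d (g i) := by
  classical
  induction s using Finset.induction_on with
  | empty => simpa using hmk_zero d
  | insert a s ha ih =>
    rw [Finset.sum_insert ha, Finset.sum_insert ha, hmk_add (hg a (Finset.mem_insert_self _ _))
      (sum_mem fun i hi => hg i (Finset.mem_insert_of_mem hi)),
      ih fun i hi => hg i (Finset.mem_insert_of_mem hi)]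

theorem hmk_congr {d : ℕ} {g g' : G X} (h : g - g' ∈ Fd X d) : hmk k d g = hmk k d g' := by
  have h1 : g - g' ∈ Fd X (d + 1) := Gd.Fd_mono (Nat.le_succ d) h
  by_cases hg' : g' ∈ Fd X (d + 1)
  · have e : g = (g - g') + g' := (sub_add_cancel _ _).symm
    rw [e, hmk_add h1 hg', hmk_of_mem h, zero_add]
  · rw [hmk_of_not_mem hg', hmk_of_not_mem]
    intro hg
    exact hg' (by simpa using sub_mem hg h1)

namespace GH

theorem induction {P : GH k X → Prop} (h0 : P 0)
    (hm : ∀ d g, g ∈ Fd X (d + 1) → P (hmk k d g)) (ha : ∀ x y, P x → P y → P (x + y))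
    (hs : ∀ (c : k) x, P x → P (c • x)) (x : GH k X) : P x := by
  obtain ⟨y, rfl⟩ := Submodule.Quotient.mk_surjective (HRel k X) x
  induction y using Finsupp.induction_linear with
  | zero => exact h0
  | add a b iha ihb => exact ha _ _ iha ihb
  | single p c =>
    have e : (Finsupp.single p c : ℕ × G X →₀ k) = c • Finsupp.single p 1 := by simp
    rw [e]
    refine hs c (hmk k p.1 p.2) ?_
    by_cases hp : p.2 ∈ Fd X (p.1 + 1)
    · exact hm _ _ hp
    · rw [hmk_of_not_mem hp]; exact h0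

theorem eq_zero_of_not_free (h : ¬X.Free) (x : GH k X) : x = 0 :=
  induction (P := fun x => x = 0) rfl (fun d g _ => hmk_of_not_free h d g)
    (fun x y hx hy => by rw [hx, hy, add_zero]) (fun c x hx => by rw [hx, smul_zero]) x

variable {V : Type*} [AddCommGroup V] [Module k V]

theorem ext {u v : GH k X →ₗ[k] V} (h : ∀ d g, g ∈ Fd X (d + 1) → u (hmk k d g) = v (hmk k d g)) :
    u = v := LinearMap.ext fun x =>
  induction (P := fun x => u x = v x) (by simp) h
    (fun x y hx hy => by rw [map_add, map_add, hx, hy])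
    (fun c x hx => by rw [map_smul, map_smul, hx]) x

open Classical in
/-- a linear map given on the leading parts -/
def lift (φ : ℕ → G X → V)
    (h1 : ∀ d g g', g ∈ Fd X (d + 1) → g' ∈ Fd X (d + 1) → φ d (g + g') = φ d g + φ d g')
    (h2 : ∀ d g, g ∈ Fd X d → φ d g = 0) : GH k X →ₗ[k] V :=
  (HRel k X).liftQ (Finsupp.linearCombination k fun p : ℕ × G X =>
    if X.Free ∧ p.2 ∈ Fd X (p.1 + 1) then φ p.1 p.2 else 0) (by
      refine Submodule.span_le.2 ?_
      rintro x (⟨d, g, g', hg, hg', rfl⟩ | ⟨d, g, hg, rfl⟩)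
      · by_cases hX : X.Free
        · simp [hX, hg, hg', add_mem hg hg', h1 d g g' hg hg']
        · simp [hX]
      · rcases hg with hg | hg | hg
        · simp [h2 d g hg]
        · simp [hg]
        · simp [hg])

theorem lift_hmk (hX : X.Free) {φ : ℕ → G X → V} {h1 h2} {d : ℕ} {g : G X}
    (hg : g ∈ Fd X (d + 1)) : lift (k := k) φ h1 h2 (hmk k d g) = φ d g := by
  unfold lift hmk
  erw [Submodule.liftQ_apply]
  simp [hg, hX]

/-- a map of filtered groups that shifts the dimension by `n - m` -/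
def map (p : G X →+ G Y) (m n : ℕ) (hp : ∀ d, ∀ g ∈ Fd X (d + m), p g ∈ Fd Y (d + n)) :
    GH k X →ₗ[k] GH k Y :=
  lift (fun d g => if m ≤ d then hmk k (d - m + n) (p g) else 0)
    (fun d g g' hg hg' => by
      split_ifs with h
      · obtain ⟨e, rfl⟩ := Nat.exists_eq_add_of_le' h
        have e1 : e + m + 1 = e + 1 + m := by ring
        have e2 : e + 1 + n = e + n + 1 := by ring
        rw [e1] at hg hg'
        rw [Nat.add_sub_cancel, map_add, hmk_add (e2 ▸ hp _ _ hg) (e2 ▸ hp _ _ hg')]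
      · rw [add_zero])
    (fun d g hg => by
      split_ifs with h
      · obtain ⟨e, rfl⟩ := Nat.exists_eq_add_of_le' h
        rw [Nat.add_sub_cancel, hmk_of_mem (hp _ _ hg)]
      · rfl)

theorem map_hmk (hX : X.Free) {p : G X →+ G Y} {m n : ℕ} {hp} {d : ℕ} {g : G X}
    (hg : g ∈ Fd X (d + 1)) :
    map (k := k) p m n hp (hmk k d g) = if m ≤ d then hmk k (d - m + n) (p g) else 0 :=
  lift_hmk hX hg

/-- a functional on the part of dimension `e` -/
def fn (e : ℕ) (φ : G X →+ V) (h : ∀ g ∈ Fd X e, φ g = 0) : GH k X →ₗ[k] V :=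
  lift (fun d g => if d = e then φ g else 0)
    (fun d g g' _ _ => by split_ifs <;> simp)
    (fun d g hg => by
      split_ifs with h'
      · exact h g (h' ▸ hg)
      · rfl)

theorem fn_hmk (hX : X.Free) {e : ℕ} {φ : G X →+ V} {h} {d : ℕ} {g : G X}
    (hg : g ∈ Fd X (d + 1)) : fn (k := k) e φ h (hmk k d g) = if d = e then φ g else 0 :=
  lift_hmk hX hg

end GH

/-- with integer coefficients nothing is lost -/
theorem mem_Fd_of_hmk (hX : X.Free) {d : ℕ} {g : G X} (hg : g ∈ Fd X (d + 1))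
    (h : hmk ℤ d g = 0) : g ∈ Fd X d := by
  have := GH.fn_hmk (k := ℤ) hX (e := d) (φ := QuotientAddGroup.mk' (Fd X d))
    (h := fun g hg => (QuotientAddGroup.eq_zero_iff g).2 hg) hg
  rw [h, map_zero, if_pos rfl] at this
  exact (QuotientAddGroup.eq_zero_iff g).1 this.symm

theorem sub_mem_Fd_of_hmk (hX : X.Free) {d : ℕ} {g g' : G X} (hg : g ∈ Fd X (d + 1))
    (hg' : g' ∈ Fd X (d + 1)) (h : hmk ℤ d g = hmk ℤ d g') : g - g' ∈ Fd X d :=
  mem_Fd_of_hmk hX (sub_mem hg hg') (by rw [hmk_sub hg hg', h, sub_self])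

end Vale.Agent.P297Z
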