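import Vale.Agent.P297Z.K.AS
import Vale.Agent.P297Z.K.PK
import Vale.Agent.P297Z.K.Flt
import Vale.Agent.P297Z.Ch.Split
import Vale.Agent.P297Z.Top.Var

/-!
# P297: the facts used by the graded layer
-/

set_option linter.all false

noncomputable section

namespace Vale.Agent.P297Z.Nd

open PowerSeries

variable {V W X Y Z : Spc}

/-! ### the filtration -/

theorem kact_Fl (a : K0 X) {d : ℕ} {g : G X} (hg : g ∈ Fl X d) : kact X a g ∈ Fl X d :=
  Flt.kact_Fl a hg

theorem Fd_zero (h : W.Free) : Fd W 0 = ⊥ :=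
  Flt.Fd_zero h

theorem free (h : X.IsProj) : X.Free :=
  h.free

theorem var_prod {n m : ℕ} (hX : X.IsVar n) (hY : Y.IsVar m) : (X.prod Y).IsVar (n + m) :=
  hX.prod hY

theorem var_pt : pt0.IsVar 0 :=
  isVar_pt0

theorem var_PP (v : ℕ) : (PP v).IsVar v :=
  isVar_PP v

theorem Fd_top {n : ℕ} (hX : X.IsVar n) (g : G X) : g ∈ Fd X (n + 1) :=
  Flt.Fd_top hX g

theorem pullG_fst_Fd {e d : ℕ} (hX : X.IsProj) (hW : W.IsVar e) {g : G X} (hg : g ∈ Fd X d) :
    pullG (Mor.fst X W) g ∈ Fd (X.prod W) (d + e) :=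
  Flt.pullG_fst_Fd hW hg

/-! ### the push-forward -/

theorem fstar_Fd (hX : X.IsProj) (hY : Y.IsProj) (f : Mor X Y) {d : ℕ} {g : G X}
    (hg : g ∈ Fd X d) : fstar f g ∈ Fd Y d :=
  Flt.fstar_Fd hX hY f hg

theorem fstar_proj (hX : X.IsProj) (hY : Y.IsProj) (f : Mor X Y) (a : K0 Y) (g : G X) :
    fstar f (kact X (pullK f a) g) = kact Y a (fstar f g) :=
  P297Z.fstar_proj hX hY f a g

theorem fstar_comp (hX : X.IsProj) (hY : Y.IsProj) (hZ : Z.IsProj) (g : Mor Y Z) (f : Mor X Y)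
    (x : G X) : fstar (g.comp f) x = fstar g (fstar f x) :=
  P297Z.fstar_comp hX hY hZ g f x

theorem fstar_id (hX : X.IsProj) (x : G X) : fstar (Mor.id X) x = x :=
  P297Z.fstar_id hX x

theorem fstar_of_inv (hX : X.IsProj) (hY : Y.IsProj) (e : Mor X Y) (e' : Mor Y X)
    (h : e.comp e' = Mor.id Y) (h' : e'.comp e = Mor.id X) : fstar e (oG X) = oG Y :=
  P297Z.fstar_of_inv hX hY h' h

theorem fstar_bc (hX : X.IsProj) (hY : Y.IsProj) (hW : W.IsProj) (f : Mor X Y) (g : G X) :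
    fstar (f.map (Mor.id W)) (pullG (Mor.fst X W) g) = pullG (Mor.fst Y W) (fstar f g) :=
  fstar_map_fst hX hY hW f g

theorem kunneth (hX : X.IsProj) (hW : W.IsProj) (g : G X) :
    fstar (Mor.snd X W) (pullG (Mor.fst X W) g) = chiG X g • oG W :=
  fstar_snd_pull hX hW g

theorem chiG_fstar (hX : X.IsProj) (hY : Y.IsProj) (f : Mor X Y) (g : G X) :
    chiG Y (fstar f g) = chiG X g :=
  P297Z.chiG_fstar hX hY f g

theorem pK_mul {n : ℕ} (hX : X.IsVar n) (hY : Y.IsProj) (b : K0 X) (a : K0 (X.prod Y)) :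
    pK X Y (pullK (Mor.fst X Y) b * a) = b * pK X Y a :=
  P297Z.pK_mul ⟨hX.conn, hX.ne⟩ hY b a

theorem pK_pull {n m : ℕ} (hW : W.IsVar m) (hX : X.IsVar n) (hY : Y.IsProj) (g : Mor W X)
    (a : K0 (X.prod Y)) : pullK g (pK X Y a) = pK W Y (pullK (g.map (Mor.id Y)) a) :=
  P297Z.pK_pull ⟨hW.conn, hW.ne⟩ ⟨hX.conn, hX.ne⟩ hY g a

theorem pK_snd {n : ℕ} (hX : X.IsVar n) (hY : Y.IsProj) (c : K0 Y) :
    pK X Y (pullK (Mor.snd X Y) c) = (chiG Y (kact Y c (oG Y)) : ℤ) :=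
  P297Z.pK_snd ⟨hX.conn, hX.ne⟩ hY c

/-! ### Chern classes -/

/-- a map that is strictly onto for the dimension filtration -/
def Dom (π : Mor V W) : Prop := ∃ p : G V →+ G W,
  (∀ a g, p (kact V (pullK π a) g) = kact W a (p g)) ∧ ∀ d, (Fd V d).map p = Fd W d

theorem split (hW : W.Free) (B : Bun W) : ∃ (V : Spc) (π : Mor V W), V.Free ∧ Dom π ∧
    ∃ l : List (V.J → ℤ), l.length = B.rk ∧ pullK π B.cls = (l.map (line V)).sum :=
  P297Z.split hW B

theorem one_sub_line (γ : X.J → ℤ) : 1 - line X γ ∈ FF X 1 :=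
  one_sub_line_mem_FF γ

theorem cc_mem_FF (i : ℕ) (a : K0 X) : cc i a ∈ FF X i :=
  P297Z.cc_mem_FF i a

theorem cT_add (a b : K0 X) : cT (a + b) = cT a * cT b :=
  P297Z.cT_add a b

theorem cT_zero : cT (0 : K0 X) = 1 :=
  P297Z.cT_zero

theorem cc_zero (a : K0 X) : cc 0 a = 1 :=
  P297Z.cc_zero a

theorem cc_one (a : K0 X) : cc 1 a = (rk X a : K0 X) - a :=
  P297Z.cc_one a

theorem cc_pull (f : Mor W X) (i : ℕ) (a : K0 X) : pullK f (cc i a) = cc i (pullK f a) :=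
  P297Z.cc_pull f i a

theorem cT_cls {l : K0 X} (h : IsCls l 1) : cT l = 1 + C (1 - l) * PowerSeries.X :=
  cT_rk1 h

theorem lam_pull (f : Mor W X) (i : ℕ) (a : K0 X) : pullK f (lam i a) = lam i (pullK f a) :=
  P297Z.lam_pull f i a

theorem lam_top (l : List (X.J → ℤ)) :
    lam l.length (l.map (line X)).sum = (l.map (line X)).prod := by
  induction l with
  | nil => exact lam_zero _
  | cons γ l ih =>
    have h : ∀ l : List (X.J → ℤ), BCls (l.map (line X)).sum l.length := fun l => by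
      induction l with
      | nil => exact bCls_zero
      | cons γ l ih =>
        rw [List.map_cons, List.sum_cons, add_comm]
        exact ih.add (bCls_line γ)
    rw [List.map_cons, List.sum_cons, List.prod_cons, List.length_cons, add_comm (line X γ),
      lam_succ_add (bCls_line γ), lam_gt (h l) (Nat.lt_succ_self _), ih, zero_add, mul_comm]

end Vale.Agent.P297Z.Nd
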