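import Vale.Agent.P297Z.Gd.A
import Vale.Agent.P297Z.Gd.Cat

/-!
# P297: push-forward, fundamental class, degree, products in the graded theory
-/

set_option linter.all false

noncomputable section

namespace Vale.Agent.P297Z

open Gd

variable {V W X Y Z : Spc} {k : Type} [CommRing k]

theorem Spc.IsVar.fr {n : ℕ} (h : X.IsVar n) : X.Free := Nd.free h.proj

theorem Spc.IsVar.cast {n m : ℕ} (h : X.IsVar n) (e : n = m) : X.IsVar m := e ▸ h

variable (k) in
/-- the fundamental class -/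
def fund (X : Spc) (n : ℕ) : GH k X := hmk k n (oG X)

theorem amk_fund {n i : ℕ} (hX : X.IsVar n) {a : K0 X} (ha : a ∈ FF X i) :
    amk k i a • fund k X n = if i ≤ n then hmk k (n - i) (kact X a (oG X)) else 0 :=
  amk_smul ha (Nd.Fd_top hX _)

theorem amk_fund_add {d i : ℕ} (hX : X.IsVar (d + i)) {a : K0 X} (ha : a ∈ FF X i) :
    amk k i a • fund k X (d + i) = hmk k d (kact X a (oG X)) :=
  amk_smul_add ha (Nd.Fd_top hX _)

theorem amk_fund_lt {n i : ℕ} (a : K0 X) (h : n < i) : amk k i a • fund k X n = 0 :=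
  amk_smul_lt _ _ h

theorem act_oG_mem {n i : ℕ} (hX : X.IsVar n) {a : K0 X} (ha : a ∈ FF X i) (h : i ≤ n) :
    kact X a (oG X) ∈ Fd X (n - i + 1) := act_mem hX.fr ha (Nd.Fd_top hX _) h

namespace GH

open Classical in
/-- the push-forward -/
def push (f : Mor X Y) : GH k X →ₗ[k] GH k Y :=
  if h : X.IsProj ∧ Y.IsProj then map (fstar f) 0 0 fun _ _ hg => Nd.fstar_Fd h.1 h.2 f hg else 0

theorem push_hmk (hX : X.IsProj) (hY : Y.IsProj) (f : Mor X Y) {d : ℕ} {g : G X}
    (hg : g ∈ Fd X (d + 1)) : push f (hmk k d g) = hmk k d (fstar f g) := by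
  rw [push, dif_pos ⟨hX, hY⟩, map_hmk (Nd.free hX) hg, if_pos (Nat.zero_le _)]; rfl

theorem push_proj (hX : X.IsProj) (hY : Y.IsProj) (f : Mor X Y) (x : GA k Y) (g : GH k X) :
    push f (GA.pull f x • g) = x • push f g := by
  rw [push, dif_pos ⟨hX, hY⟩]
  exact map_proj (Nd.free hX) (Nd.free hY) f (Nd.fstar_proj hX hY f) x g

theorem push_comp (hX : X.IsProj) (hY : Y.IsProj) (hZ : Z.IsProj) (g : Mor Y Z) (f : Mor X Y)
    (x : GH k X) : push (g.comp f) x = push g (push f x) := by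
  have : (push (g.comp f) : GH k X →ₗ[k] _) = (push g).comp (push f) := ext fun d u hu => by
    rw [LinearMap.comp_apply, push_hmk hX hZ _ hu, push_hmk hX hY _ hu,
      push_hmk hY hZ _ (Nd.fstar_Fd hX hY f hu), Nd.fstar_comp hX hY hZ]
  rw [this]; rfl

theorem push_id (hX : X.IsProj) (x : GH k X) : push (Mor.id X) x = x := by
  have : (push (Mor.id X) : GH k X →ₗ[k] _) = LinearMap.id := ext fun d u hu => by
    rw [push_hmk hX hX _ hu, Nd.fstar_id hX]; rfl
  rw [this]; rfl

theorem push_fund {n : ℕ} (hX : X.IsVar n) (hY : Y.IsProj) (f : Mor X Y) :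
    push f (fund k X n) = hmk k n (fstar f (oG X)) := push_hmk hX.proj hY f (Nd.Fd_top hX _)

theorem push_fund_of_inv {n : ℕ} (hX : X.IsVar n) (hY : Y.IsProj) (e : Mor X Y) (e' : Mor Y X)
    (h : e.comp e' = Mor.id Y) (h' : e'.comp e = Mor.id X) :
    push e (fund k X n) = fund k Y n := by
  rw [push_fund hX hY, Nd.fstar_of_inv hX.proj hY e e' h h']; rfl

open Classical in
/-- the product with the fundamental class of `W` -/
def xf (W : Spc) (e : ℕ) : GH k X →ₗ[k] GH k (X.prod W) :=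
  if h : X.IsProj ∧ W.IsVar e then
    map (pullG (Mor.fst X W)) 0 e fun _ _ hg => Nd.pullG_fst_Fd h.1 h.2 hg else 0

theorem xf_hmk {e : ℕ} (hX : X.IsProj) (hW : W.IsVar e) {d : ℕ} {g : G X} (hg : g ∈ Fd X (d + 1)) :
    xf W e (hmk k d g) = hmk k (d + e) (pullG (Mor.fst X W) g) := by
  rw [xf, dif_pos ⟨hX, hW⟩, map_hmk (Nd.free hX) hg, if_pos (Nat.zero_le _)]; rfl

theorem xf_smul {n e : ℕ} (hX : X.IsVar n) (hW : W.IsVar e) (x : GA k X) (g : GH k X) :
    xf W e (x • g) = GA.pull (Mor.fst X W) x • xf W e g := by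
  rw [xf, dif_pos ⟨hX.proj, hW⟩]
  exact map_pull (Nd.var_prod hX hW).fr hX.fr _ (pullG_kact (flat_fst X W)) x g

theorem xf_fund {n e : ℕ} (hX : X.IsVar n) (hW : W.IsVar e) :
    xf W e (fund k X n) = fund k (X.prod W) (n + e) := by
  rw [fund, xf_hmk hX.proj hW (Nd.Fd_top hX _), pullG_oG (flat_fst X W)]; rfl

theorem push_xf {n m e : ℕ} (hX : X.IsVar n) (hY : Y.IsVar m) (hW : W.IsVar e) (f : Mor X Y)
    (g : GH k X) : push (f.map (Mor.id W)) (xf W e g) = xf W e (push f g) := by
  have : (push (f.map (Mor.id W))).comp (xf W e) = (xf W e).comp (push f : GH k X →ₗ[k] _) :=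
    ext fun d u hu => by
      have h1 := Nd.pullG_fst_Fd hX.proj hW hu
      rw [add_right_comm] at h1
      rw [LinearMap.comp_apply, LinearMap.comp_apply, xf_hmk hX.proj hW hu,
        push_hmk hX.proj hY.proj _ hu, xf_hmk hY.proj hW (Nd.fstar_Fd hX.proj hY.proj f hu),
        push_hmk (Nd.var_prod hX hW).proj (Nd.var_prod hY hW).proj _ h1,
        Nd.fstar_bc hX.proj hY.proj hW.proj]
  exact LinearMap.congr_fun this g

open Classical in
/-- an additive map on `G` as a functional on the part of dimension zero -/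
def fn0 {U : Type*} [AddCommGroup U] [Module k U] (φ : G X →+ U) : GH k X →ₗ[k] U :=
  if h : X.Free then fn 0 φ fun g hg => by
    rw [Nd.Fd_zero h, AddSubgroup.mem_bot] at hg
    rw [hg, map_zero] else 0

theorem fn0_hmk {U : Type*} [AddCommGroup U] [Module k U] (hX : X.Free) (φ : G X →+ U) {d : ℕ}
    {g : G X} (hg : g ∈ Fd X (d + 1)) : fn0 φ (hmk k d g) = if d = 0 then φ g else 0 := by
  rw [fn0, dif_pos hX, fn_hmk hX hg]

/-- the degree -/
def deg : GH k X →ₗ[k] k := fn0 ((Int.castAddHom k).comp (chiG X))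

theorem deg_hmk (hX : X.Free) {d : ℕ} {g : G X} (hg : g ∈ Fd X (d + 1)) :
    deg (hmk k d g) = if d = 0 then (chiG X g : k) else 0 := fn0_hmk hX _ hg

theorem deg_push (hX : X.IsProj) (hY : Y.IsProj) (f : Mor X Y) (g : GH k X) :
    deg (push f g) = deg g := by
  have : (deg : GH k Y →ₗ[k] k).comp (push f) = deg := ext fun d u hu => by
    rw [LinearMap.comp_apply, push_hmk hX hY _ hu, deg_hmk (Nd.free hX) hu,
      deg_hmk (Nd.free hY) (Nd.fstar_Fd hX hY f hu), Nd.chiG_fstar hX hY]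
  exact LinearMap.congr_fun this g

theorem deg_amk_fund {n i : ℕ} (hX : X.IsVar n) {a : K0 X} (ha : a ∈ FF X i) :
    deg (amk k i a • fund k X n) = if i = n then (chiG X (kact X a (oG X)) : k) else 0 := by
  rw [amk_fund hX ha]
  by_cases h : i ≤ n
  · rw [if_pos h, deg_hmk hX.fr (act_oG_mem hX ha h)]
    by_cases h' : i = n
    · rw [if_pos h', if_pos (by omega)]
    · rw [if_neg h', if_neg (by omega)]
  · rw [if_neg h, map_zero, if_neg (by omega)]

theorem push_snd_xf {n e : ℕ} (hX : X.IsVar n) (hW : W.IsVar e) (g : GH k X) :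
    push (Mor.snd X W) (xf W e g) = deg g • fund k W e := by
  have : (push (Mor.snd X W)).comp (xf W e) = (deg : GH k X →ₗ[k] k).smulRight (fund k W e) :=
    ext fun d u hu => by
      have h1 := Nd.pullG_fst_Fd hX.proj hW hu
      rw [add_right_comm] at h1
      rw [LinearMap.comp_apply, LinearMap.smulRight_apply, xf_hmk hX.proj hW hu,
        push_hmk (Nd.var_prod hX hW).proj hW.proj _ h1, Nd.kunneth hX.proj hW.proj,
        deg_hmk hX.fr hu]
      by_cases hd : d = 0
      · subst hd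
        rw [if_pos rfl, zero_add, hmk_zsmul (Nd.Fd_top hW _), Int.cast_smul_eq_zsmul]; rfl
      · rw [if_neg hd, zero_smul]
        exact hmk_of_mem (Gd.Fd_mono (by omega) (Nd.Fd_top hW _))
  exact LinearMap.congr_fun this g

theorem push_map_fund {n m e : ℕ} (hX : X.IsVar n) (hY : Y.IsVar m) (hW : W.IsVar e)
    (f : Mor X Y) (x : GA k X) :
    push (f.map (Mor.id W)) (GA.pull (Mor.fst X W) x • fund k (X.prod W) (n + e)) =
      xf W e (push f (x • fund k X n)) := by
  rw [← xf_fund hX hW, ← xf_smul hX hW, push_xf hX hY hW]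

/-- integration over the first factor -/
theorem push_snd_fund {n e : ℕ} (hX : X.IsVar n) (hW : W.IsVar e) (x : GA k X) :
    push (Mor.snd X W) (GA.pull (Mor.fst X W) x • fund k (X.prod W) (n + e)) =
      deg (x • fund k X n) • fund k W e := by
  rw [← xf_fund hX hW, ← xf_smul hX hW, push_snd_xf hX hW]

theorem push_swap_fund {n e : ℕ} (hX : X.IsVar n) (hW : W.IsVar e) :
    push (Mor.lift (Mor.snd X W) (Mor.fst X W)) (fund k (X.prod W) (n + e)) =
      fund k (W.prod X) (e + n) := by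
  rw [add_comm e n]
  refine push_fund_of_inv (Nd.var_prod hX hW) (Nd.var_prod hW hX).proj _
    (Mor.lift (Mor.snd W X) (Mor.fst W X)) ?_ ?_ <;>
  rw [Ct.lift_comp, Ct.fst_lift, Ct.snd_lift, Ct.lift_eta]

/-- integration over the second factor -/
theorem push_fst_fund {n e : ℕ} (hX : X.IsVar n) (hW : W.IsVar e) (x : GA k X) :
    push (Mor.fst W X) (GA.pull (Mor.snd W X) x • fund k (W.prod X) (e + n)) =
      deg (x • fund k X n) • fund k W e := by
  have hXW := (Nd.var_prod hX hW).proj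
  have hWX := (Nd.var_prod hW hX).proj
  rw [← push_swap_fund hX hW, ← push_proj hXW hWX, ← push_comp hXW hWX hW.proj, ← GA.pull_comp,
    Ct.fst_lift, Ct.snd_lift, push_snd_fund hX hW]

end GH

end Vale.Agent.P297Z
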